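import Mathlib

/-!
Covers of uniform hypergraphs of maximum degree at most three.
-/

namespace Vale.Agent.Results.P045.DegreeThree

variable {V : Type*} [DecidableEq V]

/-- A largest family of pairwise disjoint edges. -/
lemma exists_max_packing (E : Finset (Finset V)) :
    ∃ M : Finset (Finset V), M ⊆ E ∧ (∀ e ∈ M, ∀ f ∈ M, e ≠ f → Disjoint e f) ∧
      ∀ N ⊆ E, (∀ e ∈ N, ∀ f ∈ N, e ≠ f → Disjoint e f) → N.card ≤ M.card := by
  classical
  obtain ⟨M, hM, hmax⟩ := (E.powerset.filter fun M => ∀ e ∈ M, ∀ f ∈ M, e ≠ f → Disjoint e f)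
    |>.exists_max_image Finset.card ⟨∅, by simp⟩
  simp only [Finset.mem_filter, Finset.mem_powerset] at hM
  refine ⟨M, hM.1, hM.2, fun N h1 h2 => hmax N ?_⟩
  simp only [Finset.mem_filter, Finset.mem_powerset]
  exact ⟨h1, h2⟩

/-- With maximum degree `t + 1`, there are at most `r t + 1` edges per edge of a maximum
packing. -/
lemma card_le (r t : ℕ) (hr : 0 < r) (E : Finset (Finset V)) (hu : ∀ e ∈ E, e.card = r)
    (hdeg : ∀ v, (E.filter fun e => v ∈ e).card ≤ t + 1) (k : ℕ)
    (hk : ∀ N ⊆ E, (∀ e ∈ N, ∀ f ∈ N, e ≠ f → Disjoint e f) → N.card ≤ k) :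
    E.card ≤ (r * t + 1) * k := by
  classical
  obtain ⟨M, hME, hMd, hmax⟩ := exists_max_packing E
  have hMk : M.card ≤ k := hk M hME hMd
  -- every edge meets the packing
  have hmeet : ∀ e ∈ E, ∃ f ∈ M, ∃ v ∈ f, v ∈ e := fun e he => by
    by_contra hc
    push Not at hc
    have he' : e ∉ M := fun h => by
      obtain ⟨v, hv⟩ := Finset.card_pos.mp (show 0 < e.card by rw [hu e he]; exact hr)
      exact hc e h v hv hv
    have hd : ∀ f ∈ M, Disjoint e f := fun f hf =>
      Finset.disjoint_left.mpr fun v h1 h2 => hc f hf v h2 h1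
    have := hmax (insert e M) (Finset.insert_subset he hME) fun a ha b hb hab => by
      rcases Finset.mem_insert.mp ha with rfl | ha' <;> rcases Finset.mem_insert.mp hb with rfl | hb'
      · exact absurd rfl hab
      · exact hd b hb'
      · exact (hd a ha').symm
      · exact hMd a ha' b hb' hab
    rw [Finset.card_insert_of_notMem he'] at this
    omega
  have hsub : E \ M ⊆ M.biUnion fun f => f.biUnion fun v => (E.filter fun e => v ∈ e).erase f := by
    intro e he
    obtain ⟨heE, heM⟩ := Finset.mem_sdiff.mp he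
    obtain ⟨f, hf, v, hvf, hve⟩ := hmeet e heE
    exact Finset.mem_biUnion.mpr ⟨f, hf, Finset.mem_biUnion.mpr ⟨v, hvf,
      Finset.mem_erase.mpr ⟨fun h => heM (h ▸ hf), Finset.mem_filter.mpr ⟨heE, hve⟩⟩⟩⟩
  have h1 : (E \ M).card ≤ M.card * (r * t) := (Finset.card_le_card hsub).trans
    (Finset.card_biUnion_le_card_mul _ _ _ fun f hf => by
      calc _ ≤ f.card * t := Finset.card_biUnion_le_card_mul _ _ _ fun v hv => by
            rw [Finset.card_erase_of_mem (Finset.mem_filter.mpr ⟨hME hf, hv⟩)]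
            have := hdeg v; omega
        _ = r * t := by rw [hu f (hME hf)])
  rw [Finset.card_sdiff_of_subset hME] at h1
  have := Finset.card_le_card hME
  have h2 : (r * t + 1) * M.card = M.card * (r * t) + M.card := by ring
  exact le_trans (by omega) (Nat.mul_le_mul_left _ hMk)

/-- A largest set of vertices with pairwise disjoint stars of `d` edges; off their stars every
vertex has degree less than `d`. -/
lemma exists_stars (d : ℕ) (hd : 0 < d) (E : Finset (Finset V))
    (hdeg : ∀ v, (E.filter fun e => v ∈ e).card ≤ d) :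
    ∃ (S : Finset V) (U : Finset (Finset V)), U ⊆ E ∧ d * S.card + U.card = E.card ∧
      (∀ v, (U.filter fun e => v ∈ e).card ≤ d - 1) ∧
      ∀ e ∈ E, e ∈ U ∨ ∃ v ∈ S, v ∈ e := by
  classical
  let st : V → Finset (Finset V) := fun v => E.filter fun e => v ∈ e
  let P : Finset V → Prop := fun S =>
    (∀ v ∈ S, (st v).card = d) ∧ ∀ v ∈ S, ∀ w ∈ S, v ≠ w → Disjoint (st v) (st w)
  obtain ⟨S, hS, hSmax⟩ := ((E.biUnion id).powerset.filter P).exists_max_image Finset.card
    ⟨∅, by simp [P]⟩
  simp only [Finset.mem_filter, Finset.mem_powerset] at hS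
  have hsubE : S.biUnion st ⊆ E := Finset.biUnion_subset.mpr fun v _ => Finset.filter_subset _ _
  refine ⟨S, E \ S.biUnion st, Finset.sdiff_subset, ?_, fun v => ?_, fun e he => ?_⟩
  · have h1 : (S.biUnion st).card = d * S.card := by
      rw [Finset.card_biUnion fun a ha b hb hab => hS.2.2 a ha b hb hab,
        Finset.sum_congr rfl hS.2.1, Finset.sum_const, smul_eq_mul, mul_comm]
    have h3 := Finset.card_le_card hsubE
    rw [Finset.card_sdiff_of_subset hsubE]
    omega
  · by_contra hlt
    set F := (E \ S.biUnion st).filter fun e => v ∈ e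
    have hFst : F ⊆ st v := Finset.filter_subset_filter _ Finset.sdiff_subset
    have hle : (st v).card ≤ d := hdeg v
    have heq : F = st v := Finset.eq_of_subset_of_card_le hFst (by omega)
    have hcard : (st v).card = d := by
      have := Finset.card_le_card hFst
      omega
    have hvne : (st v).Nonempty := Finset.card_pos.mp (by omega)
    have hout : ∀ e ∈ st v, e ∉ S.biUnion st := fun e he => by
      rw [← heq] at he
      exact (Finset.mem_sdiff.mp (Finset.mem_filter.mp he).1).2
    obtain ⟨e0, he0⟩ := hvne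
    have hvS : v ∉ S := fun h => hout e0 he0 (Finset.mem_biUnion.mpr ⟨v, h, he0⟩)
    have hnew : ∀ w ∈ S, Disjoint (st v) (st w) := fun w hw =>
      Finset.disjoint_left.mpr fun e he hew => hout e he (Finset.mem_biUnion.mpr ⟨w, hw, hew⟩)
    have := hSmax (insert v S) (by
      simp only [Finset.mem_filter, Finset.mem_powerset]
      refine ⟨Finset.insert_subset (Finset.mem_biUnion.mpr ⟨e0, (Finset.mem_filter.mp he0).1,
        (Finset.mem_filter.mp he0).2⟩) hS.1, ?_, ?_⟩
      · intro w hw
        rcases Finset.mem_insert.mp hw with rfl | hw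
        · exact hcard
        · exact hS.2.1 w hw
      · intro a ha b hb hab
        rcases Finset.mem_insert.mp ha with rfl | ha' <;> rcases Finset.mem_insert.mp hb with rfl | hb'
        · exact absurd rfl hab
        · exact hnew b hb'
        · exact (hnew a ha').symm
        · exact hS.2.2 a ha' b hb' hab)
    rw [Finset.card_insert_of_notMem hvS] at this
    omega
  · by_cases h : e ∈ S.biUnion st
    · obtain ⟨v, hv, hev⟩ := Finset.mem_biUnion.mp h
      exact Or.inr ⟨v, hv, (Finset.mem_filter.mp hev).2⟩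
    · exact Or.inl (Finset.mem_sdiff.mpr ⟨he, h⟩)

/-- Maximum degree two: a cover of at most half the edges plus half a maximum packing. -/
lemma cover_two (E : Finset (Finset V)) (hne : ∀ e ∈ E, e.Nonempty)
    (hdeg : ∀ v, (E.filter fun e => v ∈ e).card ≤ 2) (k : ℕ)
    (hk : ∀ N ⊆ E, (∀ e ∈ N, ∀ f ∈ N, e ≠ f → Disjoint e f) → N.card ≤ k) :
    ∃ C : Finset V, (∀ e ∈ E, ∃ v ∈ C, v ∈ e) ∧ 2 * C.card ≤ E.card + k := by
  classical
  obtain ⟨S, U, hUE, hcount, hUdeg, hcov⟩ := exists_stars 2 two_pos E hdeg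
  have hUd : ∀ e ∈ U, ∀ f ∈ U, e ≠ f → Disjoint e f := fun e he f hf hef =>
    Finset.disjoint_left.mpr fun v h1 h2 => by
      have h : ({e, f} : Finset (Finset V)) ⊆ U.filter fun e => v ∈ e := fun a ha => by
        rcases Finset.mem_insert.mp ha with rfl | ha
        · exact Finset.mem_filter.mpr ⟨he, h1⟩
        · rw [Finset.mem_singleton.mp ha]; exact Finset.mem_filter.mpr ⟨hf, h2⟩
      have := Finset.card_le_card h
      rw [Finset.card_pair hef] at this
      have := hUdeg v
      omega
  have hU : U.card ≤ k := hk U hUE hUd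
  choose g hg using fun e he => hne e (hUE he)
  refine ⟨S ∪ U.attach.image fun e => g e.1 e.2, fun e he => ?_, ?_⟩
  · rcases hcov e he with h | ⟨v, hv, hve⟩
    · exact ⟨g e h, Finset.mem_union_right _ (Finset.mem_image.mpr ⟨⟨e, h⟩, Finset.mem_attach _ _,
        rfl⟩), hg e h⟩
    · exact ⟨v, Finset.mem_union_left _ hv, hve⟩
  · have h1 := Finset.card_union_le S (U.attach.image fun e => g e.1 e.2)
    have h2 : (U.attach.image fun e => g e.1 e.2).card ≤ U.card := by
      simpa using (Finset.card_image_le (s := U.attach) (f := fun e => g e.1 e.2))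
    omega

/-- An `r`-uniform hypergraph of maximum degree two (`r ≥ 4`) or three (`r ≥ 12`) has pairwise
disjoint edges `M` and a vertex cover of size at most `(r - 1) |M|`; more precisely at most
`(r / 2 + 1) |M|`, respectively `(5 r / 6 + 1) |M|`. -/
theorem result {V : Type*} [DecidableEq V] (r : ℕ) (E : Finset (Finset V))
    (hu : ∀ e ∈ E, e.card = r)
    (h : (4 ≤ r ∧ ∀ v, (E.filter fun e => v ∈ e).card ≤ 2) ∨
      (12 ≤ r ∧ ∀ v, (E.filter fun e => v ∈ e).card ≤ 3)) :
    ∃ M : Finset (Finset V), M ⊆ E ∧ (∀ e ∈ M, ∀ f ∈ M, e ≠ f → Disjoint e f) ∧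
      ∃ C : Finset V, (∀ e ∈ E, ∃ v ∈ C, v ∈ e) ∧ C.card ≤ (r - 1) * M.card ∧
        6 * C.card ≤ (5 * r + 6) * M.card ∧
        ((∀ v, (E.filter fun e => v ∈ e).card ≤ 2) → 2 * C.card ≤ (r + 2) * M.card) := by
  classical
  have hr : 4 ≤ r := by rcases h with h | h <;> omega
  have hne : ∀ e ∈ E, e.Nonempty := fun e he => Finset.card_pos.mp (by rw [hu e he]; omega)
  obtain ⟨M, hME, hMd, hmax⟩ := exists_max_packing E
  refine ⟨M, hME, hMd, ?_⟩
  by_cases h2 : ∀ v, (E.filter fun e => v ∈ e).card ≤ 2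
  · have hm := card_le r 1 (by omega) E hu h2 M.card hmax
    obtain ⟨C, hC, hCc⟩ := cover_two E hne h2 M.card hmax
    have e1 : (r + 2) * M.card = (r * 1 + 1) * M.card + M.card := by ring
    have e2 : (r + 2) * M.card ≤ 2 * ((r - 1) * M.card) := by
      rw [← mul_assoc]; exact Nat.mul_le_mul_right _ (by omega)
    have e3 : 3 * ((r + 2) * M.card) ≤ (5 * r + 6) * M.card := by
      rw [← mul_assoc]; exact Nat.mul_le_mul_right _ (by omega)
    exact ⟨C, hC, by omega, by omega, fun _ => by omega⟩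
  · obtain ⟨hr12, h3⟩ := h.resolve_left fun hc => h2 hc.2
    have hm := card_le r 2 (by omega) E hu h3 M.card hmax
    obtain ⟨S, U, hUE, hcount, hUdeg, hcov⟩ := exists_stars 3 (by norm_num) E h3
    have hUk : ∀ N ⊆ U, (∀ e ∈ N, ∀ f ∈ N, e ≠ f → Disjoint e f) → N.card ≤ M.card :=
      fun N hN hd => hmax N (hN.trans hUE) hd
    have hmU := card_le r 1 (by omega) U (fun e he => hu e (hUE he)) hUdeg M.card hUk
    obtain ⟨C, hC, hCc⟩ := cover_two U (fun e he => hne e (hUE he)) hUdeg M.card hUk
    have hbound : 6 * (S ∪ C).card ≤ (5 * r + 6) * M.card := by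
      have h1 := Finset.card_union_le S C
      have e1 : (5 * r + 6) * M.card
          = 2 * ((r * 2 + 1) * M.card) + (r * 1 + 1) * M.card + 3 * M.card := by ring
      omega
    have e2 : (5 * r + 6) * M.card ≤ 6 * ((r - 1) * M.card) := by
      rw [← mul_assoc]; exact Nat.mul_le_mul_right _ (by omega)
    refine ⟨S ∪ C, fun e he => ?_, by omega, hbound, fun h => absurd h h2⟩
    rcases hcov e he with hU' | ⟨v, hv, hve⟩
    · obtain ⟨v, hv, hve⟩ := hC e hU'
      exact ⟨v, Finset.mem_union_right _ hv, hve⟩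
    · exact ⟨v, Finset.mem_union_left _ hv, hve⟩

end Vale.Agent.Results.P045.DegreeThree
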