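import Vale.Agent.P045.Baer.Assembly
import Vale.Agent.P045.Baer.Geo
import Vale.Agent.P045.Baer.Facts
import Vale.Agent.P045.Baer.Tool
import Vale.Agent.P045.Baer.ModelProof
import Vale.Agent.P045.Baer.EvBasic
import Vale.Agent.P045.Baer.EvGrid
import Vale.Agent.P045.Baer.EvPairs
import Vale.Agent.P045.Baer.Count
import Vale.Agent.P045.Baer.Pencil
import Vale.Agent.P045.Baer.CaseP
import Vale.Agent.P045.Baer.Low
import Vale.Agent.P045.Baer.Spec
import Vale.Agent.P045.Baer.NoCover

/-!
# P045: Ryser's conjecture is false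

For arbitrarily large `r` there is an intersecting `r`-partite `r`-uniform hypergraph all of
whose vertex covers have at least `r` vertices.
-/

namespace Vale.Agent.Results.P045.RyserDisproof

open Vale.P045.Baer

/-- Ryser's conjecture fails, already for intersecting hypergraphs, for arbitrarily large `r`. -/
theorem result :
    (∀ R : ℕ, ∃ r, R ≤ r ∧ ∃ (m : ℕ) (part : Fin m → Fin r) (E : Finset (Finset (Fin m))),
      E.Nonempty ∧
      (∀ e ∈ E, ∀ i : Fin r, ∃! v, v ∈ e ∧ part v = i) ∧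
      (∀ e ∈ E, ∀ e' ∈ E, ∃ v, v ∈ e ∧ v ∈ e') ∧
      (∀ T : Finset (Fin m), (∀ e ∈ E, ∃ v ∈ T, v ∈ e) → r ≤ T.card)) ∧
    ¬ ∀ r, 2 ≤ r → ∀ (m : ℕ) (part : Fin m → Fin r) (E : Finset (Finset (Fin m))),
      (∀ e ∈ E, ∀ i : Fin r, ∃! v, v ∈ e ∧ part v = i) →
      ∃ (T : Finset (Fin m)) (M : Finset (Finset (Fin m))),
        M ⊆ E ∧ (∀ e ∈ M, ∀ e' ∈ M, e ≠ e' → Disjoint e e') ∧
        (∀ e ∈ E, ∃ v ∈ T, v ∈ e) ∧ T.card ≤ (r - 1) * M.card := by
  have hm : MainStmt :=
    main_of_modules geo model (evBasic chernoff facts) (evGrid chernoff) (evSample chernoff facts)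
      (evPairs finner facts)
      (noCover (pencil facts) (grid facts) (count facts)
        (caseP (pencil facts) facts (count facts)) (low facts) (spec facts))
  exact ⟨hm, not_ryser_of_main hm⟩

end Vale.Agent.Results.P045.RyserDisproof
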